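import Vale.Agent.P101.Bridge.Stated
import Vale.Agent.P101.Bridge.Assembly
import Vale.Agent.P101.Bridge.Chain
import Vale.Agent.P101.Bridge.Intertwine
import Vale.Agent.P101.Bridge.Limit
import Vale.Agent.P101.Bridge.JiangSu
import Vale.Agent.P101.Bridge.HalfFlip
import Vale.Agent.P101.Bridge.StageMap
import Vale.Agent.P101.Bridge.Square

/-!
P101 (Kirchberg-Rordam): if the central sequence algebra of a separable unital C*-algebra A has no
characters then A is isomorphic to its tensor product with the Jiang-Su algebra.
-/

namespace Vale.Agent.Results.P101.JiangSuStable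

open Filter Vale.Agent.P101 Vale.Agent.P101.Bridge
open scoped Topology BoundedContinuousFunction

/-- No characters on the central sequences gives absorption of the Jiang-Su algebra. -/
theorem result : ∃ (D : Type) (_ : CStarAlgebra D), IsJiangSu D ∧
    ∀ (A : Type) [CStarAlgebra A] [TopologicalSpace.SeparableSpace A] (w : Ultrafilter ℕ),
      (w : Filter ℕ) ≤ cofinite → NoCharacter A (w : Filter ℕ) →
      HasTensor A D ∧ Absorbs A D :=
  bridgePin_of chainPin limitPin JiangSu.jiangSuPin HalfFlip.halfFlipPin Square.squarePin
    StageMap.stageMapPin intertwinePin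

end Vale.Agent.Results.P101.JiangSuStable
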